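import Crest.Agent.X261.Fam11.Flat
import Crest.Agent.X261.Fam69.Defs
import Crest.Agent.X261.Fam69.Tr
import Crest.Agent.R275.QN2b_734

/-!
# Row 261, package FAM (helper11), part Sum: the local inequalities summed over the charts

* `PU`, `exists_pu`, `exists_pu'` : nonnegative partitions of unity;
* `Wt`, `Xn`, `den_W`, `den_U` : weights, `(1,1)`-tensors and their densities;
* `Op`, `IM_op` : the global integral of a local operator applied to `ψ ∘ a`;
* `sum_of : FsStmt → SumStmt`.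
-/

set_option autoImplicit false
set_option linter.unusedSectionVars false

open Set Filter Topology MeasureTheory Matrix
open scoped ComplexConjugate ComplexOrder InnerProductSpace ContDiff

namespace Crest.Agent.X261.Fam11

open Crest.Agent.R275.Geo Crest.Agent.R275.Core144 Crest.Agent.R273.UCov_914
open Crest.Agent.R275.EDR890 Crest.Agent.R273.Hess_333 Crest.Agent.R273.HessB_333
open Crest.Agent.R273.Kah_333 Crest.Agent.R273.Fock_243
open Crest.Agent.X261.Fam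
open Crest.Agent.X261.Fam69 (gk kf_gk rd_ev tr_dif hol_rd rd_inv rd_law Cf_law g_law Jm_det_ne Jt
  sm_rd tj jt_th Tn Ca tn_Qe tn_Q0 SqG E0 Ee RG Zc SumStmt)
open Crest.Agent.X261.Rel.Act (Rep Act)

noncomputable section

variable {n q : ℕ} {H : Type*} [NormedAddCommGroup H] [InnerProductSpace ℂ H]
variable {X : Type} [TopologicalSpace X] {A : Atl n X} {G : Type} [Group G]

/-! ### partitions of unity -/

/-- a nonnegative partition of unity -/
structure PU (A : Atl n X) [Fintype A.ι] (ρ : A.ι → X → ℝ) : Prop where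
  sm : ∀ j, A.Sm (ρ j)
  nn : ∀ j x, 0 ≤ ρ j x
  sub : ∀ j, tsupport (ρ j) ⊆ (A.e j).source
  one : ∀ x, ∑ j, ρ j x = 1

theorem exists_pu [T2Space X] [CompactSpace X] (A : Atl n X) [Fintype A.ι] : ∃ ρ, PU A ρ := by
  obtain ⟨t, φ, h1, h2, -, h4, h5, -, h7⟩ := R275.QN2b734.exists_partition A isCompact_univ
    (fun i => (A.e i).source) (fun i => (A.e i).open_source) fun x _ => A.cover x
  refine ⟨φ, fun j => R275.QN2b734.sm_iff.2 (h1 j), fun j x => (h2 j x).1, h4, fun x => ?_⟩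
  rw [← h7.self_of_nhdsSet x (mem_univ x)]
  exact (Finset.sum_subset (Finset.subset_univ t) fun j _ hj => by rw [h5 j hj]; rfl).symm

theorem exists_pu' [T2Space X] [CompactSpace X] (A : Atl n X) [Fintype A.ι] {i : A.ι} {x₀ : X}
    (hx : x₀ ∈ (A.e i).source) : ∃ ρ, PU A ρ ∧ 0 < ρ i x₀ := by
  classical
  obtain ⟨ρ, hρ⟩ := exists_pu A
  obtain ⟨β, h1, h2, h3, -, h5⟩ :=
    R275.QN2b734.exists_bump_point A ((A.e i).open_source.mem_nhds hx)
  have hβ : A.Sm β := R275.QN2b734.sm_iff.2 h1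
  refine ⟨fun j x => (1 - β x) * ρ j x + if j = i then β x else 0,
    ⟨fun j k => ?_, fun j x => ?_, fun j => ?_, fun x => ?_⟩, ?_⟩
  · refine ((contDiffOn_const.sub (hβ k)).mul (hρ.sm j k)).add ?_
    split_ifs
    · exact hβ k
    · exact contDiffOn_const
  · refine add_nonneg (mul_nonneg (sub_nonneg.2 (h2 x).2) (hρ.nn j x)) ?_
    split_ifs
    · exact (h2 x).1
    · exact le_rfl
  · intro x hx'
    by_contra hj
    have e1 : ∀ᶠ y in 𝓝 x, ρ j y = 0 :=
      notMem_tsupport_iff_eventuallyEq.1 fun h => hj (hρ.sub j h)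
    have e2 : ∀ᶠ y in 𝓝 x, (if j = i then β y else 0) = 0 := by
      split_ifs with hji
      · exact notMem_tsupport_iff_eventuallyEq.1 fun h => hj (hji ▸ h5 h)
      · exact Eventually.of_forall fun _ => rfl
    refine notMem_tsupport_iff_eventuallyEq.2 ?_ hx'
    filter_upwards [e1, e2] with y e1 e2
    simp only [e1, e2, mul_zero, add_zero, Pi.zero_apply]
  · rw [Finset.sum_add_distrib, ← Finset.mul_sum, hρ.one, Finset.sum_ite_eq' Finset.univ i,
      if_pos (Finset.mem_univ _)]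
    ring
  · simp only [h3.self_of_nhds, sub_self, zero_mul, if_true, zero_add, zero_lt_one]

/-! ### weights and tensors -/

variable {D : MonD A G} {M : Subgroup G} {a : D.cov G → Cn q} {R : ℝ}

/-- smooth invariant weights -/
structure Wt (D : MonD A G) (M : Subgroup G) (a : D.cov G → Cn q) (R : ℝ) (U : D.cov G → ℝ) :
    Prop where
  sm : (D.atl G).Sm U
  inv : ∀ m ∈ M, ∀ e, U (m • e) = U e
  supp : ∀ e, R < ‖a e‖ → U e = 0

variable {U : D.cov G → ℝ}

theorem Wt.rinv (h : Wt D M a R U) {m : G} (hm : m ∈ M) (i : A.ι) (v : G) :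
    rd D U i (v * m⁻¹) = rd D U i v := by
  rw [rd_deck]
  funext z
  exact h.inv m hm _

theorem Wt.ev (h : Wt D M a R U) (hd : Dat D M a) {i : A.ι} {v : G} {z : Cn n}
    (hz : z ∈ (A.e i).target) (h1 : R < ‖rd D a i v z‖) : ∀ᶠ w in 𝓝 z, rd D U i v w = 0 := by
  have h2 : ContinuousAt (fun w => ‖rd D a i v w‖) z :=
    ((hol_rd hd i v).continuousOn.continuousAt ((A.e i).open_target.mem_nhds hz)).norm
  filter_upwards [h2.eventually (lt_mem_nhds h1)] with w hw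
  exact h.supp _ hw

theorem Wt.smOn (h : Wt D M a R U) (i : A.ι) (v : G) :
    ContDiffOn ℝ ∞ (rd D U i v) (A.e i).target := h.sm (i, v)

/-- invariant `(1,1)`-tensors -/
structure Xn (D : MonD A G) (M : Subgroup G) (a : D.cov G → Cn q) (R : ℝ)
    (Z : A.ι → G → Cn n → Mt n) : Prop where
  law : ∀ i j v, ∀ x ∈ (A.e i).source ∩ (A.e j).source,
    Z i v (A.e i x) = (Jm A i j x)ᵀ * Z j (D.c i j x * v) (A.e j x) * ((Jm A i j x)ᵀ)ᴴ
  inv : ∀ m ∈ M, ∀ i v, ∀ z ∈ (A.e i).target, Z i (v * m⁻¹) z = Z i v z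
  cont : ∀ i v, ContinuousOn (Z i v) (A.e i).target
  supp : ∀ i v, ∀ z ∈ (A.e i).target, R < ‖rd D a i v z‖ → Z i v z = 0

theorem xn_hess (hd : Dat D M a) (h : Wt D M a R U) :
    Xn D M a R fun i v z => hess (rd D U i v) z where
  law i j v x hx := by
    have h2 := sm_rd h.sm j (D.c i j x * v) ((A.e j).map_source hx.2)
    rw [hess_congr (rd_ev U v hx), hess_cmp (isOpen_ov i j) (A.holo i j) (mem_ov hx)
      (by rw [(A.e i).left_inv hx.1]; exact h2), Fam69.Cf_tr hx, (A.e i).left_inv hx.1]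
  inv m hm i v z _ := by rw [h.rinv hm]
  cont i v := cOn_hess (A.e i).open_target (h.smOn i v)
  supp i v z hz h1 := hess_zero (h.ev hd hz h1)

theorem cOn_Ca (hd : Dat D M a) (i : A.ι) (v : G) : ContinuousOn (Ca D a i v) (A.e i).target :=
  Fam69.cont_of_SM fun _ hz => Fam69.sm_Ca hd i v hz

theorem xn_d1 (hd : Dat D M a) (h : Wt D M a R U) (c : Fin q → ℂ) :
    Xn D M a R fun i v z => d1 (Ca D a i v z *ᵥ c) (rd D U i v) z where
  law i j v x hx := by
    have h2 := dif (sm_rd h.sm j (D.c i j x * v) ((A.e j).map_source hx.2))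
    have h3 := d1_cmp (ψ := rd D U j (D.c i j x * v)) (tr_dif hx)
      (by rw [(A.e i).left_inv hx.1]; exact h2) (Ca D a j (D.c i j x * v) (A.e j x) *ᵥ c)
    rw [Fam69.Cf_tr hx, (A.e i).left_inv hx.1] at h3
    rw [d1_congr _ (rd_ev U v hx), Ca, Cf_law hd v hx, ← Matrix.mulVec_mulVec, h3]
  inv m hm i v z _ := by rw [h.rinv hm, Ca, rd_inv hd hm]
  cont i v := cOn_d1 (A.e i).open_target (h.smOn i v)
    ((continuous_id.matrix_mulVec continuous_const).comp_continuousOn (cOn_Ca hd i v))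
  supp i v z hz h1 := d1_zero _ (h.ev hd hz h1)

variable {r : Rep M H} {θ : A.ι → G → Cn n → Fin n → H}

theorem den_W (K : Kah A) (hd : Dat D M a) {ε : ℝ} (hε : 0 < ε) {Z : A.ι → G → Cn n → Mt n}
    (hZ : Xn D M a R Z) (h : Jt D M r θ) : Den D M a R fun i v z =>
      ip (Wm (gE (gk K i z) (Ca D a i v z) ε) (Z i v z)) (θ i v z) (θ i v z) where
  law i j v x hx := by
    rw [h.law i j v x hx, ← ip_conj, g_law K hx, Ca, Cf_law hd v hx, gE_conj, hZ.law i j v x hx,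
      Wm_conj (Jm_det_ne K hx), ip_smul, Matrix.det_transpose]
  inv m hm i v z hz := by
    rw [h.inv ⟨m, hm⟩ i v z hz, hZ.inv m hm i v z hz, Ca, rd_inv hd hm]
    exact ip_iso (r.π ⟨m, hm⟩).toLinearIsometry _ _ _
  cont i v := cOn_ip (cOn_Wm (cOn_gE (Fam69.cont_of_SM fun _ hz => Fs.kf_sm (kf_gk K i) hz)
    (cOn_Ca hd i v) ε) (fun z hz => (gE_posDef ((kf_gk K i).pos z hz) _ hε).det_pos.ne')
    (hZ.cont i v)) (h.cont i v) (h.cont i v)
  supp i v z hz h1 := by rw [hZ.supp i v z hz h1, Wm_zero, ip_zero]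

theorem den_U {Y : A.ι → G → Cn n → Mt n} (hU : Wt D M a R U) (hY : Tn D M Y) (h : Jt D M r θ) :
    Den D M a R fun i v z => ((rd D U i v z * en (Y i v z) (θ i v z) : ℝ) : ℂ) := by
  have h1 : Den D M a R fun i v z => ((rd D U i v z : ℝ) : ℂ) * ip (Y i v z) (θ i v z) (θ i v z) :=
    { law := fun i j v x hx => by
        rw [h.law i j v x hx, ← ip_conj, hY.law i j v x hx, ip_smul, rd_law U v hx,
          Matrix.det_transpose, mul_left_comm]
      inv := fun m hm i v z hz => by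
        rw [h.inv ⟨m, hm⟩ i v z hz, hY.inv m hm i v z hz, hU.rinv hm]
        exact congrArg _ (ip_iso (r.π ⟨m, hm⟩).toLinearIsometry _ _ _)
      cont := fun i v => (Complex.continuous_ofReal.comp_continuousOn
        (hU.smOn i v).continuousOn).mul (Fam69.cont_ip (hY.cont i v) (h.cont i v) (h.cont i v))
      supp := fun i v z _ h1 => by
        rw [show rd D U i v z = 0 from hU.supp _ h1, Complex.ofReal_zero, zero_mul] }
  simpa only [Complex.re_ofReal_mul, en] using Fam69.Den.re h1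

/-! ### the pieces of `ψ ∘ a` -/

/-- the weight cut by a function on the base -/
def Uj (D : MonD A G) (a : D.cov G → Cn q) (ρ : X → ℝ) (ψ : Cn q → ℝ) (e : D.cov G) : ℝ :=
  ρ (D.pr e) * ψ (a e)

/-- extension by zero of the reading in a chart -/
def ph (D : MonD A G) (U : D.cov G → ℝ) (j : A.ι) (v : G) : Cn n → ℝ :=
  (A.e j).target.indicator (rd D U j v)

theorem rd_Uj (ρ : X → ℝ) (ψ : Cn q → ℝ) (i : A.ι) (v : G) :
    rd D (Uj D a ρ ψ) i v = fun z => ρ ((A.e i).symm z) * ψ (rd D a i v z) := rfl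

theorem ph_ev (U : D.cov G → ℝ) {j : A.ι} (v : G) {z : Cn n} (hz : z ∈ (A.e j).target) :
    ph D U j v =ᶠ[𝓝 z] rd D U j v := by
  filter_upwards [(A.e j).open_target.mem_nhds hz] with w hw
  exact indicator_of_mem hw _

variable {ρ : X → ℝ} {ψ : Cn q → ℝ}

theorem psi_off (hs : tsupport ψ ⊆ Metric.ball 0 R) {y : Cn q} (hy : R < ‖y‖) : ψ y = 0 :=
  image_eq_zero_of_notMem_tsupport fun h => by
    have := hs h
    rw [mem_ball_zero_iff] at this
    exact lt_asymm hy this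

theorem wt_Uj (hd : Dat D M a) (hρ : A.Sm ρ) (hψ : ContDiff ℝ ∞ ψ)
    (hs : tsupport ψ ⊆ Metric.ball 0 R) : Wt D M a R (Uj D a ρ ψ) where
  sm p := (hρ p.1).mul (hψ.comp_contDiffOn (hol_sm (A.e p.1).open_target (hol_rd hd p.1 p.2)))
  inv m hm e := by rw [Uj, Uj, hd.inv m hm, D.pr_deck]
  supp e he := by rw [Uj, psi_off hs he, mul_zero]

/-- the support of a piece -/
theorem exists_K [T2Space X] [CompactSpace X] (hd : Dat D M a) {j : A.ι}
    (hρ : tsupport ρ ⊆ (A.e j).source) (hs : tsupport ψ ⊆ Metric.ball 0 R) (v : G) :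
    ∃ K₀ K' : Set (Cn n), IsCompact K₀ ∧ IsCompact K' ∧ K₀ ⊆ interior K' ∧ K' ⊆ (A.e j).target ∧
      (∀ z ∈ K', ‖rd D a j v z‖ ≤ R) ∧ ∀ z ∉ K₀, ph D (Uj D a ρ ψ) j v z = 0 := by
  have h1 : IsCompact (A.e j '' tsupport ρ) :=
    (isClosed_tsupport _).isCompact.image_of_continuousOn ((A.e j).continuousOn.mono hρ)
  have h2 : A.e j '' tsupport ρ ⊆ (A.e j).target := by
    rintro _ ⟨x, hx, rfl⟩
    exact (A.e j).map_source (hρ hx)
  have h3 := (hol_rd hd j v).continuousOn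
  have h4 : IsCompact (A.e j '' tsupport ρ ∩ rd D a j v ⁻¹' tsupport ψ) :=
    h1.of_isClosed_subset ((h3.mono h2).preimage_isClosed_of_isClosed h1.isClosed
      (isClosed_tsupport _)) inter_subset_left
  obtain ⟨K', h5, h6, h7⟩ := exists_compact_between h4
    (h3.isOpen_inter_preimage (A.e j).open_target (Metric.isOpen_ball (x := 0) (ε := R)))
    (inter_subset_inter h2 (preimage_mono hs))
  refine ⟨_, K', h4, h5, h6, fun z hz => (h7 hz).1,
    fun z hz => (mem_ball_zero_iff.1 (h7 hz).2).le, fun z hz => ?_⟩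
  by_cases ht : z ∈ (A.e j).target
  · rw [ph, indicator_of_mem ht, rd_Uj]
    by_contra h0
    exact hz ⟨⟨_, subset_tsupport _ (left_ne_zero_of_mul h0), (A.e j).right_inv ht⟩,
      subset_tsupport _ (right_ne_zero_of_mul h0)⟩
  · exact indicator_of_notMem ht _

/-! ### local operators -/

/-- a local additive operator from weights to densities -/
structure Op (D : MonD A G) (M : Subgroup G) (a : D.cov G → Cn q) (R : ℝ)
    (P : A.ι → G → (Cn n → ℝ) → Cn n → ℂ) : Prop where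
  congr : ∀ i v (u u' : Cn n → ℝ) z, u =ᶠ[𝓝 z] u' → P i v u z = P i v u' z
  sum : ∀ i v (s : Finset A.ι) (u : A.ι → Cn n → ℝ) z, (∀ j ∈ s, ContDiffAt ℝ ∞ (u j) z) →
    P i v (fun w => ∑ j ∈ s, u j w) z = ∑ j ∈ s, P i v (u j) z
  den : ∀ U, Wt D M a R U → Den D M a R fun i v z => P i v (rd D U i v) z

variable {P : A.ι → G → (Cn n → ℝ) → Cn n → ℂ}

theorem Op.zero (hP : Op D M a R P) (i : A.ι) (v : G) {u : Cn n → ℝ} {z : Cn n}
    (h : ∀ᶠ w in 𝓝 z, u w = 0) : P i v u z = 0 := by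
  have h1 := hP.sum i v ∅ (fun _ => u) z (by simp)
  rw [Finset.sum_empty] at h1
  rw [← h1]
  exact hP.congr _ _ _ _ _ (h.mono fun w hw => by simpa using hw)

theorem op_W (K : Kah A) (hd : Dat D M a) {ε : ℝ} (hε : 0 < ε) (h : Jt D M r θ) :
    Op D M a R fun i v u z =>
      ip (Wm (gE (gk K i z) (Ca D a i v z) ε) (hess u z)) (θ i v z) (θ i v z) where
  congr i v u u' z e := by rw [hess_congr e]
  sum i v s u z e := by rw [hess_sum s e, Wm_sum, ip_sum]
  den U hU := den_W K hd hε (xn_hess hd hU) h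

theorem op_D (K : Kah A) (hd : Dat D M a) {ε : ℝ} (hε : 0 < ε) (h : Jt D M r θ) (c : Fin q → ℂ) :
    Op D M a R fun i v u z => ip (Wm (gE (gk K i z) (Ca D a i v z) ε)
      (d1 (Ca D a i v z *ᵥ c) u z)) (θ i v z) (θ i v z) where
  congr i v u u' z e := by rw [d1_congr _ e]
  sum i v s u z e := by rw [d1_sum s _ fun k hk => dif (e k hk), Wm_sum, ip_sum]
  den U hU := den_W K hd hε (xn_d1 hd hU c) h

theorem op_U {Y : A.ι → G → Cn n → Mt n} (hY : Tn D M Y) (h : Jt D M r θ) :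
    Op D M a R fun i v u z => ((u z * en (Y i v z) (θ i v z) : ℝ) : ℂ) where
  congr i v u u' z e := by rw [e.self_of_nhds]
  sum i v s u z _ := by rw [Finset.sum_mul, Complex.ofReal_sum]
  den U hU := den_U hU hY h

theorem tn_sub {Y Y' : A.ι → G → Cn n → Mt n} (h : Tn D M Y) (h' : Tn D M Y') :
    Tn D M fun i v z => Y i v z - Y' i v z where
  law i j v x hx := by
    rw [Matrix.mul_sub, Matrix.sub_mul, h.law i j v x hx, h'.law i j v x hx, smul_sub]
  inv m hm i v z hz := by rw [h.inv m hm i v z hz, h'.inv m hm i v z hz]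
  cont i v s p := (h.cont i v s p).sub (h'.cont i v s p)

theorem en_sub (Y Y' : Mt n) (y : Fin n → H) : en (Y - Y') y = en Y y - en Y' y := by
  rw [en, ip_sub, Complex.sub_re, en, en]

variable [T2Space X] [CompactSpace X]

theorem int_ph (hP : Op D M a R P) (hd : Dat D M a) {j : A.ι}
    (hρ : tsupport ρ ⊆ (A.e j).source) (hs : tsupport ψ ⊆ Metric.ball 0 R) (v : G) :
    ∫ z, P j v (ph D (Uj D a ρ ψ) j v) z =
      ∫ z in (A.e j).target, P j v (rd D (Uj D a ρ ψ) j v) z := by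
  obtain ⟨K₀, K', h1, -, h3, h4, -, h6⟩ := exists_K hd hρ hs v
  rw [← setIntegral_eq_integral_of_forall_compl_eq_zero (s := (A.e j).target) fun z hz =>
    hP.zero j v (Fs.ev_zero h1 h6 fun h => hz (h4 (interior_subset (h3 h))))]
  exact setIntegral_congr_fun (A.e j).open_target.measurableSet fun z hz =>
    hP.congr _ _ _ _ _ (ph_ev _ v hz)

theorem int_out (hP : Op D M a R P) (hd : Dat D M a) {j : A.ι} (hρ' : A.Sm ρ)
    (hρ : tsupport ρ ⊆ (A.e j).source) (hψ : ContDiff ℝ ∞ ψ) (hs : tsupport ψ ⊆ Metric.ball 0 R)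
    (v : G) : ∫ z, P j (v : G ⧸ M).out (ph D (Uj D a ρ ψ) j (v : G ⧸ M).out) z =
      ∫ z, P j v (ph D (Uj D a ρ ψ) j v) z := by
  rw [int_ph hP hd hρ hs, int_ph hP hd hρ hs]
  exact setIntegral_congr_fun (A.e j).open_target.measurableSet fun z hz =>
    (hP.den _ (wt_Uj hd hρ' hψ hs)).out j v hz

variable [Fintype A.ι] [Countable G]

/-- the global integral is the sum of the local ones -/
theorem IM_op (K : Kah A) (hP : Op D M a R P) (hd : Dat D M a) {ρ : A.ι → X → ℝ} (hρ : PU A ρ)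
    (hψ : ContDiff ℝ ∞ ψ) (hs : tsupport ψ ⊆ Metric.ball 0 R) {T : Finset (G ⧸ M)}
    (hT : ∀ j, ∀ w ∉ T, ∀ z ∈ (A.e j).target, R < ‖rd D a j w.out z‖) :
    IM D K M (fun i v z => P i v (fun w => ψ (rd D a i v w)) z) = ∑ p ∈ Finset.univ ×ˢ T,
      ∫ z, P p.1 p.2.out (ph D (Uj D a (ρ p.1) ψ) p.1 p.2.out) z := by
  have hW := fun j => wt_Uj hd (hρ.sm j) hψ hs
  have h1 : IM D K M (fun i v z => P i v (fun w => ψ (rd D a i v w)) z) =
      IM D K M fun i v z => ∑ j, P i v (rd D (Uj D a (ρ j) ψ) i v) z :=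
    IM_congr K fun i v z hz => by
      rw [← hP.sum i v _ _ z fun j _ => sm_rd (hW j).sm i v hz]
      congr 1
      funext w
      simp only [rd_Uj]
      rw [← Finset.sum_mul, hρ.one, one_mul]
  rw [h1, IM_sum K hd _ fun j _ => hP.den _ (hW j), Finset.sum_product]
  refine Finset.sum_congr rfl fun j _ => ?_
  rw [IM_eq_sum K hd (hP.den _ (hW j)) j T (fun i v x hx hj => hP.zero i v ?_)
    fun w hw z hz => (hP.den _ (hW j)).supp j _ z hz (hT j w hw z hz)]
  · exact Finset.sum_congr rfl fun w _ => (int_ph hP hd (hρ.sub j) hs _).symm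
  · have h2 : ∀ᶠ y in 𝓝 x, ρ j y = 0 :=
      notMem_tsupport_iff_eventuallyEq.1 fun h => hj (hρ.sub j h)
    filter_upwards [(R275.QN2b734.tendsto_symm hx).eventually h2] with w hw
    rw [rd_Uj]
    simp only [hw, zero_mul]

variable (K : Kah A) {b : M → H} {f : D.cov G → H} {ε : ℝ} {T : Finset (G ⧸ M)}
variable {σ : A.ι → X → ℝ}

theorem RG_hess (hd : Dat D M a) (hρ : PU A σ) (hψ : ContDiff ℝ ∞ ψ)
    (hs : tsupport ψ ⊆ Metric.ball 0 R)
    (hT : ∀ j, ∀ w ∉ T, ∀ z ∈ (A.e j).target, R < ‖rd D a j w.out z‖) (hε : 0 < ε)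
    (hf : Eqv D M r b f) : (RG D K M a (hess ψ) ε fun i v z => th (rd D f i v) z).re =
      ∑ p ∈ Finset.univ ×ˢ T, Rs (gk K p.1) (rd D a p.1 p.2.out) ε
        (ph D (Uj D a (σ p.1) ψ) p.1 p.2.out) (rd D f p.1 p.2.out) := by
  have h1 := IM_op K (op_W (R := R) K hd hε (jt_th hf)) hd hρ hψ hs hT
  rw [Fam69.RG, IM_congr K (Φ := fun i v z => ip (Wm (gE (gk K i z) (Ca D a i v z) ε)
    (hess (fun w => ψ (rd D a i v w)) z)) (tj D f i v z) (tj D f i v z)) fun i v z hz => by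
      rw [hess_cmp (A.e i).open_target (hol_rd hd i v) hz hψ.contDiffAt],
    h1, Complex.re_ofReal_mul, Complex.re_sum, Finset.mul_sum]
  rfl

theorem RG_Zc (hd : Dat D M a) (hρ : PU A σ) (hψ : ContDiff ℝ ∞ ψ)
    (hs : tsupport ψ ⊆ Metric.ball 0 R)
    (hT : ∀ j, ∀ w ∉ T, ∀ z ∈ (A.e j).target, R < ‖rd D a j w.out z‖) (hε : 0 < ε)
    (hf : Eqv D M r b f) (c : Fin q → ℂ) :
    ‖RG D K M a (Zc c ψ) ε fun i v z => th (rd D f i v) z‖ ≤
      ∑ p ∈ Finset.univ ×ˢ T, ε ^ q / ε * ‖∫ z, ip (Wm (gE (gk K p.1 z)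
        (Cf (rd D a p.1 p.2.out) z) ε) (d1 (Cf (rd D a p.1 p.2.out) z *ᵥ c)
        (ph D (Uj D a (σ p.1) ψ) p.1 p.2.out) z)) (th (rd D f p.1 p.2.out) z)
        (th (rd D f p.1 p.2.out) z)‖ := by
  have h1 := IM_op K (op_D (R := R) K hd hε (jt_th hf) c) hd hρ hψ hs hT
  have h0 : 0 ≤ ε ^ q / ε := by positivity
  rw [Fam69.RG, IM_congr K (Φ := fun i v z => ip (Wm (gE (gk K i z) (Ca D a i v z) ε)
    (d1 (Ca D a i v z *ᵥ c) (fun w => ψ (rd D a i v w)) z)) (tj D f i v z) (tj D f i v z))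
    fun i v z hz => by
      rw [d1_cmp ((hol_rd hd i v).differentiableAt ((A.e i).open_target.mem_nhds hz))
        (dif hψ.contDiffAt)]
      rfl,
    h1, norm_mul, Complex.norm_real, Real.norm_of_nonneg h0, ← Finset.mul_sum]
  exact mul_le_mul_of_nonneg_left (norm_sum_le _ _) h0

theorem IM_en {Y : A.ι → G → Cn n → Mt n} (hY : Tn D M Y) (hd : Dat D M a) (hρ : PU A σ)
    (hψ : ContDiff ℝ ∞ ψ) (hs : tsupport ψ ⊆ Metric.ball 0 R)
    (hT : ∀ j, ∀ w ∉ T, ∀ z ∈ (A.e j).target, R < ‖rd D a j w.out z‖) (h : Jt D M r θ) :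
    (IM D K M fun i v z => ((ψ (rd D a i v z) * en (Y i v z) (θ i v z) : ℝ) : ℂ)).re =
      ∑ p ∈ Finset.univ ×ˢ T, ∫ z, ph D (Uj D a (σ p.1) ψ) p.1 p.2.out z *
        en (Y p.1 p.2.out z) (θ p.1 p.2.out z) := by
  rw [IM_op K (op_U (R := R) hY h) hd hρ hψ hs hT, Complex.re_sum]
  exact Finset.sum_congr rfl fun p _ => by rw [integral_complex_ofReal, Complex.ofReal_re]

theorem Ee_sub (hd : Dat D M a) (hρ : PU A σ) (hψ : ContDiff ℝ ∞ ψ)
    (hs : tsupport ψ ⊆ Metric.ball 0 R)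
    (hT : ∀ j, ∀ w ∉ T, ∀ z ∈ (A.e j).target, R < ‖rd D a j w.out z‖) (h : Jt D M r θ) :
    Ee D K M a ψ ε θ - E0 D K M a ψ θ =
      ∑ p ∈ Finset.univ ×ˢ T, ∫ z, ph D (Uj D a (σ p.1) ψ) p.1 p.2.out z *
        (ee (gk K p.1 z) (Cf (rd D a p.1 p.2.out) z) ε (θ p.1 p.2.out z) -
          e0 (gk K p.1 z) (Cf (rd D a p.1 p.2.out) z) (θ p.1 p.2.out z)) := by
  have h1 := IM_en K (tn_sub (tn_Qe K hd ε) (tn_Q0 K hd)) hd hρ hψ hs hT h
  have h2 := IM_sub K hd (Fam69.den_en hd (tn_Qe K hd ε) h hψ.continuous fun _ => psi_off hs)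
    (Fam69.den_en hd (tn_Q0 K hd) h hψ.continuous fun _ => psi_off hs)
  simp only [en_sub] at h1
  simp only [← Complex.ofReal_sub, ← mul_sub] at h2
  rw [h2, Complex.sub_re] at h1
  exact h1

theorem sum_le_of {κ : Type*} (s : Finset κ) {u : κ → ℝ} {δ η : ℝ} (hη : 0 < η)
    (hδ : δ = η / (s.card + 1)) {w : κ → ℝ} (h : ∀ p ∈ s, u p ≤ w p + δ) :
    ∑ p ∈ s, u p ≤ ∑ p ∈ s, w p + η := by
  refine (Finset.sum_le_sum h).trans ?_
  rw [Finset.sum_add_distrib, Finset.sum_const, nsmul_eq_mul, hδ, mul_div_assoc']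
  gcongr
  rw [div_le_iff₀ (by positivity)]
  nlinarith

/-- **SUM** -/
theorem sum_of (fs : FsStmt) : SumStmt := by
  intro n q X _ _ _ A _ _ K G _ _ D M a hd H _ _ _ r b ψ R hψ h0 hs
  classical
  have := Fintype.ofFinite A.ι
  obtain ⟨T, hT⟩ := hd.exists_fin R
  -- the local statements
  have loc : ∀ (ρ : X → ℝ) (j : A.ι) (v : G), A.Sm ρ → (∀ x, 0 ≤ ρ x) →
      tsupport ρ ⊆ (A.e j).source → ∃ K' : Set (Cn n), IsCompact K' ∧ K' ⊆ (A.e j).target ∧
      (∀ z ∈ K', ‖rd D a j v z‖ ≤ R) ∧ ContDiff ℝ ∞ (ph D (Uj D a ρ ψ) j v) ∧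
      (∀ z, 0 ≤ ph D (Uj D a ρ ψ) j v z) ∧ tsupport (ph D (Uj D a ρ ψ) j v) ⊆ interior K' := by
    intro ρ j v h1 h2 h3
    obtain ⟨K₀, K', k1, k2, k3, k4, k5, k6⟩ := exists_K hd h3 hs v
    refine ⟨K', k2, k4, k5, Fs.sm_ext k1 (k3.trans (interior_subset.trans k4)) (fun z hz =>
      (sm_rd (wt_Uj hd h1 hψ hs).sm j v hz).congr_of_eventuallyEq (ph_ev _ v hz)) k6,
      fun z => indicator_nonneg (fun w _ => mul_nonneg (h2 _) (h0 _)) z,
      (closure_minimal (fun z hz => by_contra fun h => (Function.mem_support.1 hz) (k6 z h))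
        k1.isClosed).trans k3⟩
  refine ⟨fun ε F hε hε1 hF hS c t κ η hc ht hκ hη => ?_, fun i v z₀ hz₀ hp => ?_⟩
  · obtain ⟨σ, hσ⟩ := exists_pu A
    set s : Finset (A.ι × (G ⧸ M)) := Finset.univ ×ˢ T with hs'
    have hδ : 0 < η / (s.card + 1) := by positivity
    have h1 := (eventually_all_finset s).2 fun p _ => by
      obtain ⟨K', k1, k2, k3, k4, k5, k6⟩ := loc (σ p.1) p.1 p.2.out (hσ.sm _) (hσ.nn _) (hσ.sub _)
      exact ((fs n q H (cjR r) _ _ _ _ K' (kf_gk K p.1) (hol_rd hd p.1 p.2.out) k4 k5 k1 k6 k2).1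
        ε (fun j => rd D (F j) p.1 p.2.out) hε hε1 (hS p.1 p.2.out K' k1 k2 k3) _ hδ).2
        c t κ hc ht hκ
    filter_upwards [h1] with j hj
    refine (RG_Zc K hd hσ hψ hs hT hε (hF j) c).trans ((sum_le_of s hη rfl hj).trans_eq ?_)
    rw [Ee_sub K hd hσ hψ hs hT (jt_th (hF j)), RG_hess K hd hσ hψ hs hT hε (hF j), Ee,
      show (IM D K M fun i v z => ((ψ (rd D a i v z) * ee (K.g i ((A.e i).symm z))
        (Cf (rd D a i v) z) ε (th (rd D (F j) i v) z) : ℝ) : ℂ)).re = _ from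
        IM_en K (tn_Qe K hd ε) hd hσ hψ hs hT (jt_th (hF j)),
      Finset.sum_add_distrib, Finset.sum_add_distrib, ← Finset.mul_sum, ← Finset.mul_sum,
      ← Finset.mul_sum]
    rfl
  · obtain ⟨σ, hσ, hσ0⟩ := exists_pu' A ((A.e i).map_target hz₀)
    obtain ⟨K', k1, k2, k3, k4, k5, k6⟩ := loc (σ i) i v (hσ.sm _) (hσ.nn _) (hσ.sub _)
    have hpos : 0 < ph D (Uj D a (σ i) ψ) i v z₀ := by
      rw [(ph_ev _ v hz₀).self_of_nhds]
      exact mul_pos hσ0 hp
    refine ⟨_, (isOpen_lt continuous_const k4.continuous).mem_nhds hpos, fun χ hχ hχs => ?_⟩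
    obtain ⟨C, hC0, hC⟩ := (fs n q H (cjR r) _ _ _ _ K' (kf_gk K i) (hol_rd hd i v) k4 k5 k1 k6
      k2).2 χ hχ hχs
    refine ⟨C, hC0, fun ε F hε hε1 hF hS η hη => ?_⟩
    have hT' : ∀ j, ∀ w ∉ insert (v : G ⧸ M) T, ∀ z ∈ (A.e j).target, R < ‖rd D a j w.out z‖ :=
      fun j w hw => hT j w fun h => hw (Finset.mem_insert_of_mem h)
    set s : Finset (A.ι × (G ⧸ M)) := Finset.univ ×ˢ insert (v : G ⧸ M) T with hs'
    have hm : (i, (v : G ⧸ M)) ∈ s :=
      Finset.mem_product.2 ⟨Finset.mem_univ _, Finset.mem_insert_self _ _⟩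
    have hη' : 0 < η / 2 / (C + 1) := by positivity
    have hδ : 0 < η / 2 / (C + 1) / ((s.erase (i, (v : G ⧸ M))).card + 1) := by positivity
    have h1 := (eventually_all_finset (s.erase (i, (v : G ⧸ M)))).2 fun p _ => by
      obtain ⟨K', k1, k2, k3, k4, k5, k6⟩ := loc (σ p.1) p.1 p.2.out (hσ.sm _) (hσ.nn _) (hσ.sub _)
      exact ((fs n q H (cjR r) _ _ _ _ K' (kf_gk K p.1) (hol_rd hd p.1 p.2.out) k4 k5 k1 k6 k2).1
        ε (fun j => rd D (F j) p.1 p.2.out) hε hε1 (hS p.1 p.2.out K' k1 k2 k3) _ hδ).1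
    filter_upwards [h1, hC ε (fun j => rd D (F j) i v) hε hε1 (hS i v K' k1 k2 k3) _
      (half_pos hη)] with j hj hj' s₀ I
    have h2 := sum_le_of (u := fun _ => 0) _ hη' rfl fun p hp => neg_le_iff_add_nonneg.1 (hj p hp)
    have h3 : Rs (gk K i) (rd D a i (v : G ⧸ M).out) ε (ph D (Uj D a (σ i) ψ) i (v : G ⧸ M).out)
        (rd D (F j) i (v : G ⧸ M).out) =
        Rs (gk K i) (rd D a i v) ε (ph D (Uj D a (σ i) ψ) i v) (rd D (F j) i v) := by
      rw [Rs, Rs]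
      exact congrArg (fun y : ℂ => ε ^ q / ε * y.re)
        (int_out (op_W (R := R) K hd hε (jt_th (hF j))) hd (hσ.sm i) (hσ.sub i) hψ hs v)
    have h4 := RG_hess K hd hσ hψ hs hT' hε (hF j)
    rw [← Finset.add_sum_erase _ _ hm] at h4
    rw [Finset.sum_const_zero] at h2
    have h5 : C * (η / 2 / (C + 1)) ≤ η / 2 := by
      rw [mul_div_assoc', div_le_iff₀ (by positivity)]
      nlinarith
    have h6 : Rs (gk K i) (rd D a i v) ε (ph D (Uj D a (σ i) ψ) i v) (rd D (F j) i v) ≤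
        (RG D K M a (hess ψ) ε fun i v z => th (rd D (F j) i v) z).re + η / 2 / (C + 1) := by
      rw [h4, ← h3]
      linarith
    have h7 := mul_le_mul_of_nonneg_left h6 hC0
    have h8 := hj' s₀ I
    linarith

end

end Crest.Agent.X261.Fam11

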