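import Crest.Agent.X261.Fam.St

/-!
# Row 261, package FAM (helper11), part Flat: chain rules and continuity

* `wd_cmp`, `hess_cmp`, `d1_cmp` : chain rules for a holomorphic map `ℂ^n → ℂ^q`;
* `hess_sum`, `d1_sum` : additivity;
* `cOn_*` : continuity of the tensors.
-/

set_option autoImplicit false
set_option linter.unusedSectionVars false

open Set Filter Topology MeasureTheory Matrix
open scoped ComplexConjugate ComplexOrder InnerProductSpace ContDiff NNReal

namespace Crest.Agent.X261.Fam11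

open Crest.Agent.R275.Geo Crest.Agent.R275.EDR890 Crest.Agent.R273.Hess_333
open Crest.Agent.R273.HessB_333 Crest.Agent.R273.Fock_243
open Crest.Agent.X261.Fam

noncomputable section

variable {n q : ℕ} {H : Type*} [NormedAddCommGroup H] [InnerProductSpace ℂ H]

theorem dif {E W : Type*} [NormedAddCommGroup E] [NormedSpace ℝ E] [NormedAddCommGroup W]
    [NormedSpace ℝ W] {f : E → W} {z : E} (hf : ContDiffAt ℝ ∞ f z) : DifferentiableAt ℝ f z :=
  hf.differentiableAt (by simp)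

theorem co_hol {a : Cn n → Cn q} {z : Cn n} (ha : DifferentiableAt ℂ a z) (h : Fin q) :
    DifferentiableAt ℂ (fun w => a w h) z :=
  (EuclideanSpace.proj h : Cn q →L[ℂ] ℂ).differentiableAt.comp z ha

theorem Cf_fd {a : Cn n → Cn q} {z : Cn n} (ha : DifferentiableAt ℂ a z) (b : Fin n) (h : Fin q) :
    Cf a z b h = fderiv ℂ a z (EuclideanSpace.single b 1) h := by
  have h1 : fderiv ℂ (fun w => a w h) z =
      (EuclideanSpace.proj h : Cn q →L[ℂ] ℂ).comp (fderiv ℂ a z) :=
    ((EuclideanSpace.proj h : Cn q →L[ℂ] ℂ).hasFDerivAt.comp z ha.hasFDerivAt).fderiv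
  rw [Cf, Matrix.of_apply, wd_hol' (co_hol ha h), h1]
  rfl

/-- chain rule -/
theorem wd_cmp {W : Type*} [NormedAddCommGroup W] [NormedSpace ℂ W] {f : Cn q → W}
    {a : Cn n → Cn q} {z : Cn n} (hf : DifferentiableAt ℝ f (a z)) (ha : DifferentiableAt ℂ a z)
    (s : Bool) (b : Fin n) :
    wd (s, b) (fun w => f (a w)) z = ∑ l, cj s (Cf a z b l) • wd (s, l) f (a z) := by
  have h' : fderiv ℝ (fun w => f (a w)) z =
      (fderiv ℝ f (a z)).comp ((fderiv ℂ a z).restrictScalars ℝ) :=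
    (hf.hasFDerivAt.comp z (ha.hasFDerivAt.restrictScalars ℝ)).fderiv
  have hI : (EuclideanSpace.single b Complex.I : Cn n) =
      Complex.I • EuclideanSpace.single b (1 : ℂ) := by
    ext c
    simp [PiLp.single_apply]
  simp only [Cf_fd ha]
  rw [wd, h', wdL]
  simp only [ContinuousLinearMap.comp_apply, ContinuousLinearMap.coe_restrictScalars']
  rw [hI, map_smul]
  exact wdL_vec s _ _

theorem hol_sm {W : Type*} [NormedAddCommGroup W] [NormedSpace ℂ W] [CompleteSpace W]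
    {U : Set (Cn n)} (hU : IsOpen U) {f : Cn n → W} (hf : DifferentiableOn ℂ f U) :
    ContDiffOn ℝ ∞ f U :=
  ((R266.SCV.analyticOnNhd_of_differentiableOn hU hf).contDiffOn_of_completeSpace).restrict_scalars ℝ

theorem wd_zero {W : Type*} [NormedAddCommGroup W] [NormedSpace ℂ W] {f : Cn n → W} {z : Cn n}
    (h : ∀ᶠ w in 𝓝 z, f w = 0) (s : WI n) : wd s f z = 0 := by
  rw [wd_congr (g := fun _ => 0) h, wd_const]

variable {U : Set (Cn n)} {a : Cn n → Cn q} {z : Cn n}

theorem co_sm (hU : IsOpen U) (ha : DifferentiableOn ℂ a U) (hz : z ∈ U) (h : Fin q) :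
    ContDiffAt ℝ ∞ (fun w => a w h) z :=
  (hol_sm hU ((EuclideanSpace.proj h : Cn q →L[ℂ] ℂ).differentiable.comp_differentiableOn
    ha)).contDiffAt (hU.mem_nhds hz)

theorem Cf_db (hU : IsOpen U) (ha : DifferentiableOn ℂ a U) (hz : z ∈ U) (b c : Fin n)
    (h : Fin q) : wd (true, c) (fun w => Cf a w b h) z = 0 := by
  refine (wd_comm (co_sm hU ha hz h) (true, c) (false, b)).trans (wd_zero ?_ _)
  filter_upwards [hU.mem_nhds hz] with w hw
  exact wd_hol (co_hol (ha.differentiableAt (hU.mem_nhds hw)) h) c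

/-- the Hessian of a composition with a holomorphic map -/
theorem hess_cmp (hU : IsOpen U) (ha : DifferentiableOn ℂ a U) (hz : z ∈ U) {ψ : Cn q → ℝ}
    (hψ : ContDiffAt ℝ ∞ ψ (a z)) :
    hess (fun w => ψ (a w)) z = Cf a z * hess ψ (a z) * (Cf a z)ᴴ := by
  ext c b
  have haz : DifferentiableAt ℂ a z := ha.differentiableAt (hU.mem_nhds hz)
  have hud : ∀ᶠ w in 𝓝 z, DifferentiableAt ℝ (cu ψ) (a w) := by
    have h1 : ∀ᶠ y in 𝓝 (a z), DifferentiableAt ℝ (cu ψ) y := by
      have := ((contDiffAt_cu hψ).of_le (m := 1) (by exact_mod_cast le_top)).eventually (by simp)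
      filter_upwards [this] with y hy
      exact hy.differentiableAt (by simp)
    exact haz.continuousAt.eventually h1
  have h1 : wd (true, b) (cu fun w => ψ (a w)) =ᶠ[𝓝 z] fun w => ∑ l,
      conj (Cf a w b l) * wd (true, l) (cu ψ) (a w) := by
    filter_upwards [hU.mem_nhds hz, hud] with w hw hw'
    exact wd_cmp (f := cu ψ) hw' (ha.differentiableAt (hU.mem_nhds hw)) true b
  have hJ : ∀ l, DifferentiableAt ℝ (fun w => Cf a w b l) z := fun l =>
    dif (contDiffAt_wd (co_sm hU ha hz l) _)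
  have hJb : ∀ l, wd (false, c) (fun w => conj (Cf a w b l)) z = 0 := fun l => by
    have h8 := conj_wd (true, c) (hJ l)
    rw [Cf_db hU ha hz, map_zero] at h8
    exact h8.symm
  have hw2 : ∀ l, DifferentiableAt ℝ (wd (true, l) (cu ψ)) (a z) := fun l =>
    dif (contDiffAt_wd (contDiffAt_cu hψ) _)
  have hd1 : ∀ l, DifferentiableAt ℝ (fun w => conj (Cf a w b l)) z := fun l =>
    (Complex.conjCLE : ℂ →L[ℝ] ℂ).differentiableAt.comp z (hJ l)
  have hd2 : ∀ l, DifferentiableAt ℝ (fun w => wd (true, l) (cu ψ) (a w)) z := fun l =>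
    (hw2 l).comp z (haz.restrictScalars ℝ)
  rw [hess_apply, wd_congr h1, wd_sum Finset.univ (f := fun l w =>
      conj (Cf a w b l) * wd (true, l) (cu ψ) (a w)) (fun l _ => (hd1 l).mul (hd2 l)),
    Matrix.mul_apply]
  refine Finset.sum_congr rfl fun l _ => ?_
  rw [wd_mul (hd1 l) (hd2 l), hJb l, zero_mul, zero_add, wd_cmp (hw2 l) haz false c,
    Matrix.mul_apply, mul_comm]
  rfl

theorem dif_cu {u : Cn n → ℝ} (hu : DifferentiableAt ℝ u z) : DifferentiableAt ℝ (cu u) z :=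
  Complex.ofRealCLM.differentiableAt.comp z hu

/-- `c ⊗ ∂̄ ψ` pulled back by a holomorphic map -/
theorem d1_cmp (ha : DifferentiableAt ℂ a z) {ψ : Cn q → ℝ} (hψ : DifferentiableAt ℝ ψ (a z))
    (c : Fin q → ℂ) :
    d1 (Cf a z *ᵥ c) (fun w => ψ (a w)) z = Cf a z * d1 c ψ (a z) * (Cf a z)ᴴ := by
  ext d b
  have h1 : wd (true, b) (cu fun w => ψ (a w)) z =
      ∑ l, conj (Cf a z b l) * wd (true, l) (cu ψ) (a z) :=
    wd_cmp (f := cu ψ) (dif_cu hψ) ha true b
  simp only [d1, Matrix.of_apply, h1, Matrix.mul_apply, Matrix.mulVec, dotProduct,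
    Matrix.conjTranspose_apply, RCLike.star_def, Finset.mul_sum, Finset.sum_mul]
  rw [Finset.sum_comm]
  exact Finset.sum_congr rfl fun l _ => Finset.sum_congr rfl fun k _ => by ring

theorem d1_congr (y : Fin n → ℂ) {u v : Cn n → ℝ} (h : u =ᶠ[𝓝 z] v) : d1 y u z = d1 y v z := by
  ext d b
  have h1 : cu u =ᶠ[𝓝 z] cu v := h.mono fun w hw => by simp only [cu, hw]
  simp only [d1, Matrix.of_apply, wd_congr h1]

theorem d1_zero (y : Fin n → ℂ) {u : Cn n → ℝ} (h : ∀ᶠ w in 𝓝 z, u w = 0) : d1 y u z = 0 := by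
  ext d b
  have h1 : ∀ᶠ w in 𝓝 z, cu u w = 0 := h.mono fun w hw => by simp only [cu, hw, Complex.ofReal_zero]
  simp only [d1, Matrix.of_apply, wd_zero h1, mul_zero, Matrix.zero_apply]

theorem hess_zero {u : Cn n → ℝ} (h : ∀ᶠ w in 𝓝 z, u w = 0) : hess u z = 0 := by
  ext d b
  have h1 : ∀ᶠ w in 𝓝 z, wd (true, b) (cu u) w = 0 := h.eventually_nhds.mono fun w hw =>
    wd_zero (hw.mono fun y hy => by simp only [cu, hy, Complex.ofReal_zero]) _
  rw [hess_apply, wd_zero h1, Matrix.zero_apply]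

theorem d1_sum {κ : Type*} (s : Finset κ) (y : Fin n → ℂ) {u : κ → Cn n → ℝ}
    (h : ∀ k ∈ s, DifferentiableAt ℝ (u k) z) :
    d1 y (fun w => ∑ k ∈ s, u k w) z = ∑ k ∈ s, d1 y (u k) z := by
  ext d b
  have h1 : cu (fun w => ∑ k ∈ s, u k w) = fun w => ∑ k ∈ s, cu (u k) w := by
    funext w; simp only [cu, Complex.ofReal_sum]
  simp only [d1, Matrix.of_apply, h1, wd_sum s fun k hk => dif_cu (h k hk), Finset.mul_sum,
    Matrix.sum_apply]

theorem hess_sum {κ : Type*} (s : Finset κ) {u : κ → Cn n → ℝ}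
    (h : ∀ k ∈ s, ContDiffAt ℝ ∞ (u k) z) :
    hess (fun w => ∑ k ∈ s, u k w) z = ∑ k ∈ s, hess (u k) z := by
  classical
  induction s using Finset.induction_on with
  | empty => simpa using hess_zero (u := fun _ => 0) (Eventually.of_forall fun _ => rfl)
  | insert k s hk ih =>
    simp only [Finset.sum_insert hk]
    rw [hess_add (h k (Finset.mem_insert_self _ _))
      (ContDiffAt.sum fun l hl => h l (Finset.mem_insert_of_mem hl)),
      ih fun l hl => h l (Finset.mem_insert_of_mem hl)]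

/-! ### continuity -/

section cont

variable {Y : Type*} [TopologicalSpace Y] {V : Set Y}

theorem cOn_mul {ι κ σ : Type} [Fintype κ] {m : Y → Matrix ι κ ℂ} {m' : Y → Matrix κ σ ℂ}
    (h : ContinuousOn m V) (h' : ContinuousOn m' V) : ContinuousOn (fun y => m y * m' y) V :=
  (continuous_fst.matrix_mul continuous_snd).comp_continuousOn (h.prodMk h')

theorem cOn_ct {ι κ : Type} {m : Y → Matrix ι κ ℂ} (h : ContinuousOn m V) :
    ContinuousOn (fun y => (m y)ᴴ) V :=
  continuous_id.matrix_conjTranspose.comp_continuousOn h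

theorem cOn_det {m : Y → Mt n} (h : ContinuousOn m V) : ContinuousOn (fun y => (m y).det) V :=
  continuous_id.matrix_det.comp_continuousOn h

theorem cOn_adj {m : Y → Mt n} (h : ContinuousOn m V) : ContinuousOn (fun y => (m y).adjugate) V :=
  continuous_id.matrix_adjugate.comp_continuousOn h

theorem cOn_inv {m : Y → Mt n} (h : ContinuousOn m V) (h0 : ∀ y ∈ V, (m y).det ≠ 0) :
    ContinuousOn (fun y => (m y)⁻¹) V := by
  have h1 : ContinuousOn (fun y => ((m y).det)⁻¹ • (m y).adjugate) V :=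
    ((cOn_det h).inv₀ h0).smul (cOn_adj h)
  refine h1.congr fun z _ => ?_
  simp only [Matrix.inv_def, Ring.inverse_eq_inv']

theorem cOn_gE {g : Y → Mt n} {C : Y → Mr n q} (hg : ContinuousOn g V) (hC : ContinuousOn C V)
    (ε : ℝ) : ContinuousOn (fun y => gE (g y) (C y) ε) V :=
  hg.add ((cOn_mul hC (cOn_ct hC)).const_smul ((ε⁻¹ : ℝ) : ℂ))

theorem cOn_Qe {g : Y → Mt n} {C : Y → Mr n q} (hg : ContinuousOn g V) (hC : ContinuousOn C V)
    (ε : ℝ) : ContinuousOn (fun y => Qe (g y) (C y) ε) V :=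
  (cOn_adj (cOn_gE hg hC ε)).const_smul ((ε ^ q : ℝ) : ℂ)

theorem cOn_Wm {g X : Y → Mt n} (hg : ContinuousOn g V) (h0 : ∀ y ∈ V, (g y).det ≠ 0)
    (hX : ContinuousOn X V) : ContinuousOn (fun y => Wm (g y) (X y)) V := by
  have h1 := cOn_inv hg h0
  have h2 := cOn_mul h1 hX
  exact (cOn_det hg).smul (((continuous_id.matrix_trace.comp_continuousOn h2).smul h1).sub
    (cOn_mul h2 h1))

theorem cOn_ip {ι : Type} [Fintype ι] {Q : Y → Matrix ι ι ℂ} {θ θ' : Y → ι → H}
    (hQ : ContinuousOn Q V) (h : ∀ b, ContinuousOn (fun y => θ y b) V)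
    (h' : ∀ b, ContinuousOn (fun y => θ' y b) V) :
    ContinuousOn (fun y => ip (Q y) (θ y) (θ' y)) V := by
  simp only [ip_eq]
  exact continuousOn_finsetSum _ fun r _ => continuousOn_finsetSum _ fun p _ =>
    (continuousOn_pi.1 (continuousOn_pi.1 hQ r) p).mul (ContinuousOn.inner (𝕜 := ℂ) (h r) (h' p))

end cont

theorem cOn_hess (hU : IsOpen U) {u : Cn n → ℝ} (hu : ContDiffOn ℝ ∞ u U) :
    ContinuousOn (hess u) U :=
  continuousOn_pi.2 fun b => continuousOn_pi.2 fun c => (contDiffOn_hess hU hu b c).continuousOn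

theorem cOn_d1 (hU : IsOpen U) {u : Cn n → ℝ} (hu : ContDiffOn ℝ ∞ u U) {y : Cn n → Fin n → ℂ}
    (hy : ContinuousOn y U) : ContinuousOn (fun z => d1 (y z) u z) U :=
  continuousOn_pi.2 fun b => continuousOn_pi.2 fun c => (continuousOn_pi.1 hy b).mul
    (contDiffOn_wd hU (Complex.ofRealCLM.contDiff.comp_contDiffOn hu) (true, c)).continuousOn

theorem ip_zero {ι : Type} [Fintype ι] (θ θ' : ι → H) : ip (0 : Matrix ι ι ℂ) θ θ' = 0 := by
  simp [ip_eq]

end

end Crest.Agent.X261.Fam11
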